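import Mathlib
import Vale.Agent.P329.H817.Comp

/-!
# Zones as ultrafilters; one minimal shift-invariant filter

Histories are lists, newest letter first, values in `ZMod p`.  `Sys` = what the language side
gives (helper100's axioms).  Everything else is filters.
-/

namespace Vale.Agent.P329.H366

open Filter
open Vale.Agent.P329.H817 (TL)

variable {α : Type} {p : ℕ}

/-- sum of `f` over the nonempty prefixes -/
def NN (f : List α → ZMod p) : List α → ZMod p := TL f (fun _ => 1)

theorem NN_nil (f : List α → ZMod p) : NN f [] = 0 := rfl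

theorem NN_cons (f : List α → ZMod p) (b : α) (v : List α) : NN f (b :: v) = NN f v + f (b :: v) := by
  simp [NN, TL]

/-- class of functions closed under constants and all binary operations -/
structure Alg0 (A : (List α → ZMod p) → Prop) : Prop where
  const : ∀ a : ZMod p, A fun _ => a
  bin : ∀ (Φ : ZMod p → ZMod p → ZMod p) (f g : List α → ZMod p), A f → A g →
    A fun v => Φ (f v) (g v)

/-- ... and under removing the newest letter -/
structure Alg (A : (List α → ZMod p) → Prop) : Prop extends Alg0 A where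
  tail : ∀ f : List α → ZMod p, A f → A fun v => f v.tail

/-- indicator -/
noncomputable def ind (p : ℕ) (S : Set (List α)) : List α → ZMod p := by
  classical exact fun v => if v ∈ S then 1 else 0

open Classical in
/-- abstract code systems: what the language side gives -/
structure Sys (α : Type) (p : ℕ) (Cap : (List α → ZMod p) → Prop) where
  Code : Type
  A : Code → (List α → ZMod p) → Prop
  w : Code → List α → ZMod p
  U : Code → (List α → ZMod p) → Prop
  Mem : Code → ℕ → (List α → ZMod p) → Prop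
  nx : Code → (List α → ZMod p) → ZMod p → Code
  alg : ∀ D, Alg (A D)
  letter : ∀ D (b : α), A D fun v => if v.head? = some b then 1 else 0
  cap : ∀ D f, A D f → Cap f
  w_nil : ∀ D, w D [] = 0
  w_U : ∀ D, U D (w D)
  U_A : ∀ D h, U D h → A D h
  U_cut : ∀ D h, U D h → ∀ v, h v ≠ 0 → w D v ≠ 0
  Mem_A : ∀ D n g, Mem D n g → A D g
  Mem_cut : ∀ D n g, Mem D n g → ∀ v, g v ≠ 0 → w D v ≠ 0
  mem : ∀ D f, A D f → (∀ v, f v ≠ 0 → w D v ≠ 0) → ∃ n, Mem D n f
  /-- a local function depends only on the newest `J` letters and cut flags if there are enough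
  cuts among the newest `J` prefixes -/
  loc : ∀ D f, A D f → ∃ n, ∀ (J : ℕ) (v v' : List α), v.take J = v'.take J →
    (∀ i < J, (w D (v.drop i) = 0 ↔ w D (v'.drop i) = 0)) →
    n ≤ ((Finset.range J).filter fun i => w D (v.drop i) ≠ 0).card → f v = f v'
  nx_A : ∀ D h ρ, U D h → ∀ f, A D f → A (nx D h ρ) f
  nx_N : ∀ D h ρ, U D h → A (nx D h ρ) (NN h)
  nx_w : ∀ D h ρ, U D h → ∀ v, w (nx D h ρ) v = if NN h v = ρ then h v else 0
  /-- arrival splitting -/
  arr : ∀ D n g ρ, Mem D (n + 1) g → Mem (nx D (w D) ρ) n fun v => if NN (w D) v = ρ then g v else 0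
  /-- null splitting -/
  null : ∀ D g ρ, Mem D 0 g → ∃ φ η : List α → ZMod p,
    A (nx D (w D) ρ) φ ∧ (∀ v, φ v ≠ 0 → w (nx D (w D) ρ) v ≠ 0) ∧
    U (nx D (w D) ρ) (fun v => w (nx D (w D) ρ) v + φ v) ∧
    A (nx D (w D) ρ) η ∧
    (∀ v, g v * (w D v)⁻¹ * ((if NN (w D) v.tail = ρ then 1 else 0) - (if NN (w D) v = ρ then 1 else 0))
      = φ v + η v - η v.tail) ∧
    (∀ (v : List α) (J : ℕ), (∃ i, 1 ≤ i ∧ i ≤ J ∧ w (nx D (w D) ρ) (v.drop i) ≠ 0) →
      (∀ j ≤ J, g (v.drop j) = 0) → φ v = 0)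
  /-- marks -/
  mark : ∀ D k G (J : ℕ), A D k → A D G → (∀ v, k v ≠ 0 → ∃ i ≤ J, w D (v.drop i) ≠ 0) →
    ∃ g G', A D g ∧ (∀ v, g v ≠ 0 → w D v ≠ 0) ∧ A D G' ∧ TL k G = fun v => NN g v + G' v
  /-- value at the last cut -/
  til : ∀ D f, A D f → ∃ f', A D f' ∧ ∀ v, f' v = if w D v ≠ 0 then f v else
    (if v = [] then 0 else f' v.tail)

/-- eventual coboundary -/
def Cob (A : (List α → ZMod p) → Prop) (M : Filter (List α)) (h : List α → ZMod p) : Prop :=
  ∃ ψ, A ψ ∧ ∀ᶠ v in M, h v = ψ v - ψ v.tail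

/-- minimal tail invariant filters -/
structure MinInv (M : Filter (List α)) : Prop where
  ne : M.NeBot
  inv : Tendsto List.tail M M
  min : ∀ M' : Filter (List α), M'.NeBot → M' ≤ M → Tendsto List.tail M' M' → M' = M

/-- good walks -/
def Good (A : (List α → ZMod p) → Prop) (M : Filter (List α)) (h : List α → ZMod p) : Prop :=
  ¬ Cob A M h ∨ ((∀ᶠ v in M, h v = 0 ∨ h v = 1) ∧ ∃ᶠ v in M, h v ≠ 0)

/-- the marks near zones: innermost first, neighbourhood before weight -/
def RA (Cap A : (List α → ZMod p) → Prop) : List (Ultrafilter (List α)) → (List α → ZMod p) → Prop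
  | [], G => Cap G
  | P :: Ps, G => ∃ S ∈ P, A (ind p S) ∧ ∀ k, A k → (∀ v, k v ≠ 0 → v ∈ S) → RA Cap A Ps (TL k G)

/-- `P` and `Q` have the same `A`-type -/
def Eqv (A : (List α → ZMod p) → Prop) (P Q : Ultrafilter (List α)) : Prop :=
  ∀ S : Set (List α), A (ind p S) → (S ∈ P ↔ S ∈ Q)

/-- minimal shift invariant filter on `ℕ` -/
structure MinShift (FF : Filter ℕ) : Prop where
  ne : FF.NeBot
  cof : FF ≤ atTop
  inv : Tendsto (fun i => i + 1) FF FF
  min : ∀ F' : Filter ℕ, F'.NeBot → F' ≤ FF → Tendsto (fun i => i + 1) F' F' → F' = FF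

/-- the filter of the minimal set of the zone `P` -/
def MM (FF : Filter ℕ) (P : Ultrafilter (List α)) : Filter (List α) where
  sets := {S | ∀ᶠ i in FF, ∀ᶠ v in (P : Filter (List α)), v.drop i ∈ S}
  univ_sets := by simp
  sets_of_superset := by
    intro S T hS hST
    exact hS.mono fun i hi => hi.mono fun v hv => hST hv
  inter_sets := by
    intro S T hS hT
    filter_upwards [hS, hT] with i h1 h2
    filter_upwards [h1, h2] with v h3 h4
    exact ⟨h3, h4⟩

theorem mem_MM {FF : Filter ℕ} {P : Ultrafilter (List α)} {S : Set (List α)} :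
    S ∈ MM FF P ↔ ∀ᶠ i in FF, ∀ᶠ v in (P : Filter (List α)), v.drop i ∈ S := Iff.rfl

end Vale.Agent.P329.H366
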